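import Vale.Agent.P269H.Defs
import Vale.Agent.P264Z.G.CP

/-!
# P269: projective space as a complete intersection, and the embedding of `M`
-/

open scoped Manifold ContDiff Topology LinearAlgebra.Projectivization
open Set Function Filter

noncomputable section

namespace Vale.Agent.P269HN

open P269H P264Z P272.K MvPolynomial

variable {n : ℕ}

lemma nrm_mk {ι : Type} (v : ι → ℂ) (hv : v ≠ 0) (i : ι) :
    ((Projectivization.mk ℂ v hv).rep i)⁻¹ • (Projectivization.mk ℂ v hv).rep = (v i)⁻¹ • v := by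
  obtain ⟨a, ha⟩ := Projectivization.exists_smul_eq_mk_rep ℂ v hv
  rw [← ha]
  funext k
  simp only [Units.smul_def, Pi.smul_apply, smul_eq_mul, mul_inv_rev]
  have := a.ne_zero
  by_cases h : v i = 0
  · simp [h]
  · field_simp

lemma rep_mk_ne {ι : Type} (v : ι → ℂ) (hv : v ≠ 0) (i : ι) :
    (Projectivization.mk ℂ v hv).rep i ≠ 0 ↔ v i ≠ 0 := by
  obtain ⟨a, ha⟩ := Projectivization.exists_smul_eq_mk_rep ℂ v hv
  rw [← ha]
  simp [Units.smul_def]

/-- the normalised lift of a linear embedding of the affine chart is an analytic immersion -/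
lemma imm {m : ℕ} (L : (Fin (n + 1) → ℂ) →L[ℂ] (Fin m → ℂ)) (hL : Injective L) (k : Fin (n + 1))
    (i : Fin m) (z : Cm n) (hz : L (CP.ins k z) i ≠ 0) :
    AnalyticAt ℂ (fun w => (L (CP.ins k w) i)⁻¹ • L (CP.ins k w)) z ∧
      Injective (fderiv ℂ (fun w => (L (CP.ins k w) i)⁻¹ • L (CP.ins k w)) z) := by
  have h1 : ContDiff ℂ ω fun w : Cm n => L (CP.ins k w) := L.contDiff.comp (CP.contDiff_ins' k)
  have h2 : ContDiffAt ℂ ω (fun w => (L (CP.ins k w) i)⁻¹ • L (CP.ins k w)) z :=
    ((contDiff_pi.1 h1 i).contDiffAt.inv hz).smul h1.contDiffAt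
  refine ⟨h2.analyticAt, ?_⟩
  obtain ⟨G, hG⟩ := (L : (Fin (n + 1) → ℂ) →ₗ[ℂ] (Fin m → ℂ)).exists_leftInverse_of_injective
    (LinearMap.ker_eq_bot.2 hL)
  have hG' : ∀ v, G (L v) = v := fun v => LinearMap.congr_fun hG v
  set F := fun w => (L (CP.ins k w) i)⁻¹ • L (CP.ins k w) with hF
  have h3 : ContDiffAt ℂ ω (fun u => CP.aff k (G u)) (F z) := by
    refine (CP.contDiffAt_aff k ?_).comp (F z) (LinearMap.toContinuousLinearMap G).contDiff.contDiffAt
    simp only [hF, map_smul, hG', Pi.smul_apply, CP.ins_same, smul_eq_mul, mul_one]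
    exact inv_ne_zero hz
  have h4 : (fun u => CP.aff k (G u)) ∘ F =ᶠ[𝓝 z] id := by
    filter_upwards [(contDiff_pi.1 h1 i).continuous.continuousAt.eventually_ne hz] with w hw
    simp only [comp, hF, map_smul, hG', id, CP.aff_smul k (inv_ne_zero hw), CP.aff_ins]
  have h5 := fderiv_comp z (h3.differentiableAt (by simp)) (h2.differentiableAt (by simp))
  rw [h4.fderiv_eq, fderiv_id] at h5
  intro a b hab
  have := congrArg (fderiv ℂ (fun u => CP.aff k (G u)) (F z)) hab
  rwa [← ContinuousLinearMap.comp_apply, ← ContinuousLinearMap.comp_apply, ← h5] at this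

/-- projective space is a complete intersection of codimension zero -/
def pn (n : ℕ) : CI n 0 (CP n) where
  f := Fin.elim0
  dg := Fin.elim0
  hom j := j.elim0
  pt := id
  inj := injective_id
  rng y := ⟨fun _ j => j.elim0, fun _ => ⟨y, rfl⟩⟩
  ind _ := linearIndependent_empty_type
  hol := by
    rintro e ⟨k, rfl⟩ x hx i hi
    have h : (fun w => (Projectivization.rep (id ((CP.chart k).symm w) : CP n) i)⁻¹ •
        Projectivization.rep (id ((CP.chart k).symm w) : CP n)) =
        fun w => (CP.ins k w i)⁻¹ • CP.ins k w := funext fun w => nrm_mk _ (CP.ins_ne_zero k w) i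
    have h' := imm (ContinuousLinearMap.id ℂ _) injective_id k i (CP.chart k x) (by
      have := (CP.chart k).left_inv hx
      rw [← this] at hi
      exact (rep_mk_ne _ (CP.ins_ne_zero k _) i).1 hi)
    exact h ▸ h'

/-- the inclusion of the hyperplane where the last coordinate vanishes -/
def snocL (n : ℕ) : (Fin (n + 1) → ℂ) →L[ℂ] (Fin (n + 1 + 1) → ℂ) :=
  ContinuousLinearMap.pi fun i => Fin.lastCases 0 (fun j => ContinuousLinearMap.proj j) i

@[simp] lemma snocL_last (v : Fin (n + 1) → ℂ) : snocL n v (Fin.last _) = 0 := by simp [snocL]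

@[simp] lemma snocL_cast (v : Fin (n + 1) → ℂ) (j : Fin (n + 1)) :
    snocL n v j.castSucc = v j := by simp [snocL]

lemma snocL_inj : Injective (snocL n) := fun v w h => funext fun j => by
  simpa using congrFun h j.castSucc

lemma snocL_ne {v : Fin (n + 1) → ℂ} (hv : v ≠ 0) : snocL n v ≠ 0 := fun h =>
  hv (snocL_inj (h.trans (map_zero _).symm))

/-- the point of the hyperplane -/
def hpt (p : CP n) : ℙ ℂ (Fin (n + 1 + 1) → ℂ) :=
  Projectivization.mk ℂ (snocL n (Projectivization.rep p)) (snocL_ne (Projectivization.rep_nonzero p))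

lemma hpt_mk (v : CP.V0 n) :
    hpt (CP.mk v) = Projectivization.mk ℂ (snocL n v.1) (snocL_ne v.2) := by
  obtain ⟨a, -, h⟩ := CP.exists_rep v
  refine (Projectivization.mk_eq_mk_iff' ℂ _ _ _ _).2 ⟨a, ?_⟩
  rw [← map_smul, ← h]; rfl

/-- `P^n` as a hyperplane of `P^(n+1)` -/
def hyp (n : ℕ) : CI n 1 (CP n) where
  f _ := X (Fin.last _)
  dg _ := 1
  hom _ := isHomogeneous_X _ _
  pt := hpt
  inj p q h := by
    obtain ⟨v, rfl⟩ := CP.mk_surjective p
    obtain ⟨w, rfl⟩ := CP.mk_surjective q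
    rw [hpt_mk, hpt_mk] at h
    obtain ⟨a, ha⟩ := (Projectivization.mk_eq_mk_iff' ℂ _ _ _ _).1 h
    exact (CP.mk_eq_iff _ _).2 ⟨a, snocL_inj (by rw [map_smul, ha])⟩
  rng y := by
    simp only [eval_X, forall_const]
    constructor
    · rintro ⟨p, rfl⟩
      by_contra h
      exact (rep_mk_ne _ _ _).1 h (snocL_last _)
    · intro h
      have e : snocL n (fun j => y.rep j.castSucc) = y.rep := by
        funext i
        induction i using Fin.lastCases with
        | last => rw [snocL_last, h]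
        | cast j => rw [snocL_cast]
      have h0 : (fun j : Fin (n + 1) => y.rep j.castSucc) ≠ 0 := fun h0 =>
        y.rep_nonzero (by rw [← e, h0, map_zero])
      refine ⟨CP.mk ⟨_, h0⟩, ?_⟩
      rw [hpt_mk]
      simp only [e, Projectivization.mk_rep]
  ind x := by
    rw [linearIndependent_unique_iff]
    intro h
    simpa using congrFun h (Fin.last _)
  hol := by
    rintro e ⟨k, rfl⟩ x hx i hi
    have h : (fun w => ((hpt ((CP.chart k).symm w)).rep i)⁻¹ • (hpt ((CP.chart k).symm w)).rep) =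
        fun w => (snocL n (CP.ins k w) i)⁻¹ • snocL n (CP.ins k w) := funext fun w => by
      rw [CP.chart_symm, CP.pt, hpt_mk]; exact nrm_mk _ _ i
    have h' := imm (snocL n) snocL_inj k i (CP.chart k x) (by
      have := (CP.chart k).left_inv hx
      rw [← this, CP.chart_symm, CP.pt, hpt_mk] at hi
      exact (rep_mk_ne _ _ i).1 hi)
    exact h ▸ h'

variable {r c : ℕ} {M : Type} [TopologicalSpace M] [ChartedSpace (Cm r) M] (X : CI r c M)

/-- the embedding of `M` into projective space -/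
def emb (x : M) : CP (r + c) := X.pt x

lemma pn_emb (x : M) : (pn (r + c)).pt (emb X x) = X.pt x := rfl

/-- the normalised lift in the chart `e` -/
def lf (e : Chart r M) (i : Fin (r + c + 1)) (w : Cm r) : Fin (r + c + 1) → ℂ :=
  ((X.pt (e.symm w)).rep i)⁻¹ • (X.pt (e.symm w)).rep

variable {e : Chart r M} {x : M} {i : Fin (r + c + 1)}

lemma lf_an (h : At e x) (hi : (X.pt x).rep i ≠ 0) : AnalyticAt ℂ (lf X e i) (e x) :=
  (X.hol e h.1 x h.2 i hi).1

lemma lf_inj (h : At e x) (hi : (X.pt x).rep i ≠ 0) : Injective (fderiv ℂ (lf X e i) (e x)) :=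
  (X.hol e h.1 x h.2 i hi).2

lemma ev_ne (h : At e x) (hi : (X.pt x).rep i ≠ 0) :
    ∀ᶠ w in 𝓝 (e x), (X.pt (e.symm w)).rep i ≠ 0 := by
  have h1 : ContinuousAt (fun w => lf X e i w i) (e x) :=
    (continuous_apply i).continuousAt.comp (lf_an X h hi).continuousAt
  have h2 : lf X e i (e x) i ≠ 0 := by
    simp only [lf, e.left_inv h.2, Pi.smul_apply, smul_eq_mul]
    exact mul_ne_zero (inv_ne_zero hi) hi
  filter_upwards [h1.eventually_ne h2] with w hw h0
  exact hw (by simp [lf, h0])

/-- the embedding in the charts `e` and `CP.chart i` -/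
lemma chart_emb (h : At e x) (hi : (X.pt x).rep i ≠ 0) :
    (fun w => CP.chart i (emb X (e.symm w))) =ᶠ[𝓝 (e x)] fun w => CP.aff i (lf X e i w) := by
  filter_upwards [ev_ne X h hi] with w hw
  exact (CP.aff_smul i (inv_ne_zero hw) _).symm

lemma chart_emb_an (h : At e x) (hi : (X.pt x).rep i ≠ 0) :
    ContDiffAt ℂ ω (fun w => CP.chart i (emb X (e.symm w))) (e x) := by
  refine ContDiffAt.congr_of_eventuallyEq ?_ (chart_emb X h hi)
  refine (CP.contDiffAt_aff i ?_).comp (e x) (lf_an X h hi).contDiffAt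
  simp only [lf, e.left_inv h.2, Pi.smul_apply, smul_eq_mul]
  exact mul_ne_zero (inv_ne_zero hi) hi

lemma continuous_emb : Continuous (emb X) := by
  refine continuous_iff_continuousAt.2 fun x => ?_
  obtain ⟨i, hi⟩ := CP.exists_ne (emb X x)
  have h : At (chartAt (Cm r) x) x := ⟨chart_mem_atlas _ x, mem_chart_source _ x⟩
  set e := chartAt (Cm r) x
  have h1 : ContinuousAt (fun y => (CP.chart i).symm (CP.chart i (emb X (e.symm (e y))))) x :=
    ((CP.chart i).continuousAt_symm (mem_univ _)).comp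
      ((chart_emb_an X h hi).continuousAt.comp (e.continuousAt h.2))
  refine h1.congr ?_
  filter_upwards [(e.continuousAt h.2).eventually (ev_ne X h hi), e.open_source.mem_nhds h.2]
    with y hy hy'
  rw [e.left_inv hy'] at hy ⊢
  exact (CP.chart i).left_inv hy

lemma contMDiff_emb [IsManifold 𝓘(ℂ, Cm r) ω M] :
    ContMDiff 𝓘(ℂ, Cm r) 𝓘(ℂ, Cm (r + c)) ω (emb X) := by
  intro x
  rw [contMDiffAt_iff]
  refine ⟨(continuous_emb X).continuousAt, ?_⟩
  have h : At (chartAt (Cm r) x) x := ⟨chart_mem_atlas _ x, mem_chart_source _ x⟩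
  have : ContDiffAt ℂ ω (fun w => chartAt (Cm (r + c)) (emb X x) (emb X ((chartAt (Cm r) x).symm w)))
      (chartAt (Cm r) x x) := chart_emb_an X h (CP.exists_ne (emb X x)).choose_spec
  simpa [contDiffWithinAt_univ, Function.comp_def] using this

end Vale.Agent.P269HN
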